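import Mathlib

/-!
P361 stage 3, leaf K4: heat kernel bounds on a cycle (pure Fourier sum).

`hk m t x = (1/m) ∑_{j<m} exp(-t (1 - cos (2πj/m))) cos (2πjx/m)` is the heat kernel at time `t`
of the cycle of length `m` with rate `1/2` per bond.
-/

namespace Vale.Agent.P361.LRO.B3

open Finset Real

noncomputable section

/-- Fourier sum of the heat kernel of the cycle of length `m`, rate `1/2` per bond. -/
def hk (m : ℕ) (t : ℝ) (x : ℤ) : ℝ :=
  (1 / m) * ∑ j ∈ range m, exp (-(t * (1 - cos (2 * π * j / m)))) * cos (2 * π * j / m * x)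

theorem sin_jordan {u : ℝ} (h0 : 0 ≤ u) (h1 : u ≤ 1) : 2 * min u (1 - u) ≤ sin (π * u) := by
  rcases le_total u (1 - u) with h | h
  · rw [min_eq_left h]
    have := mul_le_sin (x := π * u) (by positivity) (by nlinarith [pi_pos])
    calc 2 * u = 2 / π * (π * u) := by field_simp
      _ ≤ _ := this
  · rw [min_eq_right h]
    have h2 : sin (π * u) = sin (π * (1 - u)) := by
      rw [show π * (1 - u) = π - π * u by ring, sin_pi_sub]
    rw [h2]
    have := mul_le_sin (x := π * (1 - u)) (mul_nonneg pi_pos.le (by linarith))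
      (by nlinarith [pi_pos])
    calc 2 * (1 - u) = 2 / π * (π * (1 - u)) := by field_simp
      _ ≤ _ := this

theorem one_sub_cos (θ : ℝ) : 1 - cos θ = 2 * sin (θ / 2) ^ 2 := by
  have h1 := cos_two_mul (θ / 2)
  have h2 := sin_sq_add_cos_sq (θ / 2)
  rw [show 2 * (θ / 2) = θ by ring] at h1
  linarith

theorem lam_ge {m j : ℕ} (hm : 0 < m) (hj : j ≤ m) :
    8 * ((min j (m - j) : ℕ) : ℝ) ^ 2 / (m : ℝ) ^ 2 ≤ 1 - cos (2 * π * j / m) := by
  have hm' : (0 : ℝ) < m := by exact_mod_cast hm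
  have h1 := sin_jordan (u := (j : ℝ) / m) (by positivity)
    (by rw [div_le_one hm']; exact_mod_cast hj)
  have h2 : min ((j : ℝ) / m) (1 - (j : ℝ) / m) = ((min j (m - j) : ℕ) : ℝ) / m := by
    rw [Nat.cast_min, Nat.cast_sub hj]
    have : 1 - (j : ℝ) / m = ((m : ℝ) - j) / m := by field_simp
    rw [this, min_div_div_right hm'.le]
  rw [h2] at h1
  rw [one_sub_cos]
  have h3 : 2 * π * (j : ℝ) / m / 2 = π * ((j : ℝ) / m) := by ring
  rw [h3]
  have h4 : (0 : ℝ) ≤ 2 * (((min j (m - j) : ℕ) : ℝ) / m) := by positivity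
  have h5 := pow_le_pow_left₀ h4 h1 2
  calc 8 * ((min j (m - j) : ℕ) : ℝ) ^ 2 / (m : ℝ) ^ 2
      = 2 * (2 * (((min j (m - j) : ℕ) : ℝ) / m)) ^ 2 := by ring
    _ ≤ _ := by linarith

theorem lam_nonneg (θ : ℝ) : 0 ≤ 1 - cos θ := by linarith [cos_le_one θ]

/-- `∑_{1 ≤ j ≤ n} exp(-b² j²) ≤ 2 / b`. -/
theorem sum_gauss {b : ℝ} (hb : 0 < b) (n : ℕ) :
    ∑ j ∈ range n, exp (-(b ^ 2 * ((j : ℝ) + 1) ^ 2)) ≤ 2 / b := by
  have h : ∀ n : ℕ, ∑ j ∈ range n, exp (-(b ^ 2 * ((j : ℝ) + 1) ^ 2)) ≤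
      2 / b * (1 - 1 / (1 + b * n)) := by
    intro n
    induction n with
    | zero => simp
    | succ n ih =>
      rw [sum_range_succ]
      have h1 : exp (-(b ^ 2 * ((n : ℝ) + 1) ^ 2)) ≤ 1 / (1 + b ^ 2 * ((n : ℝ) + 1) ^ 2) := by
        rw [exp_neg, ← one_div]
        apply one_div_le_one_div_of_le (by positivity)
        have := add_one_le_exp (b ^ 2 * ((n : ℝ) + 1) ^ 2)
        linarith
      have h2 : 1 / (1 + b ^ 2 * ((n : ℝ) + 1) ^ 2) ≤
          2 / b * (1 / (1 + b * n) - 1 / (1 + b * (n + 1))) := by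
        have e : 2 / b * (1 / (1 + b * n) - 1 / (1 + b * (n + 1))) =
            2 / ((1 + b * n) * (1 + b * (n + 1))) := by
          field_simp
          ring
        rw [e, div_le_div_iff₀ (by positivity) (by positivity)]
        have hn : (0 : ℝ) ≤ n := Nat.cast_nonneg n
        nlinarith [sq_nonneg (b * (n + 1) - 1), mul_nonneg hb.le hn]
      push_cast
      have e2 : 2 / b * (1 - 1 / (1 + b * (n + 1))) =
        2 / b * (1 - 1 / (1 + b * n)) + 2 / b * (1 / (1 + b * n) - 1 / (1 + b * (n + 1))) := by ring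
      rw [e2]
      linarith
  refine (h n).trans ?_
  have h3 : (0 : ℝ) ≤ 1 / (1 + b * n) := by positivity
  have h4 : 0 ≤ 2 / b := by positivity
  nlinarith

theorem sum_exp_le {m : ℕ} (hm : 0 < m) {t : ℝ} (ht : 0 < t) :
    ∑ j ∈ range m, exp (-(t * (1 - cos (2 * π * j / m)))) ≤ 1 + 2 * m / sqrt (2 * t) := by
  have hm' : (0 : ℝ) < m := by exact_mod_cast hm
  set b : ℝ := 2 * sqrt (2 * t) / m with hb
  have hb0 : 0 < b := by positivity
  have hb2 : b ^ 2 = 8 * t / (m : ℝ) ^ 2 := by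
    rw [hb, div_pow, mul_pow, sq_sqrt (by positivity)]; ring
  obtain ⟨k, rfl⟩ : ∃ k, m = k + 1 := ⟨m - 1, by omega⟩
  rw [sum_range_succ']
  have h0 : exp (-(t * (1 - cos (2 * π * ((0 : ℕ) : ℝ) / ((k + 1 : ℕ) : ℝ))))) = 1 := by simp
  rw [h0]
  have h1 : ∀ j ∈ range k, exp (-(t * (1 - cos (2 * π * ((j + 1 : ℕ) : ℝ) / ((k + 1 : ℕ) : ℝ))))) ≤
      exp (-(b ^ 2 * ((j : ℝ) + 1) ^ 2)) + exp (-(b ^ 2 * (((k - 1 - j : ℕ) : ℝ) + 1) ^ 2)) := by
    intro j hj
    rw [mem_range] at hj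
    have h2 := lam_ge (m := k + 1) (j := j + 1) (by omega) (by omega)
    have h3 : exp (-(t * (1 - cos (2 * π * ((j + 1 : ℕ) : ℝ) / ((k + 1 : ℕ) : ℝ))))) ≤
        exp (-(b ^ 2 * ((min (j + 1) (k + 1 - (j + 1)) : ℕ) : ℝ) ^ 2)) := by
      apply exp_le_exp.2
      apply neg_le_neg
      rw [hb2]
      calc 8 * t / ((k + 1 : ℕ) : ℝ) ^ 2 * ((min (j + 1) (k + 1 - (j + 1)) : ℕ) : ℝ) ^ 2
          = t * (8 * ((min (j + 1) (k + 1 - (j + 1)) : ℕ) : ℝ) ^ 2 / ((k + 1 : ℕ) : ℝ) ^ 2) := by ring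
        _ ≤ _ := by gcongr
    refine h3.trans ?_
    rcases le_total (j + 1) (k + 1 - (j + 1)) with h | h
    · rw [min_eq_left h]
      push_cast
      have := exp_pos (-(b ^ 2 * (((k - 1 - j : ℕ) : ℝ) + 1) ^ 2))
      linarith
    · rw [min_eq_right h]
      have e : ((k + 1 - (j + 1) : ℕ) : ℝ) = ((k - 1 - j : ℕ) : ℝ) + 1 := by
        have : k + 1 - (j + 1) = (k - 1 - j) + 1 := by omega
        rw [this]; push_cast; ring
      rw [e]
      have := exp_pos (-(b ^ 2 * ((j : ℝ) + 1) ^ 2))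
      linarith
  have h4 := sum_le_sum h1
  rw [sum_add_distrib, sum_range_reflect (fun j => exp (-(b ^ 2 * ((j : ℝ) + 1) ^ 2))) k] at h4
  have h5 := sum_gauss hb0 k
  have h6 : 2 / b = ((k + 1 : ℕ) : ℝ) / sqrt (2 * t) := by
    rw [hb]; field_simp
  rw [h6] at h5
  have h7 : 2 * ((k + 1 : ℕ) : ℝ) / sqrt (2 * t) = ((k + 1 : ℕ) : ℝ) / sqrt (2 * t) +
    ((k + 1 : ℕ) : ℝ) / sqrt (2 * t) := by ring
  rw [h7]
  linarith

/-- Upper bound: `|hk m t x| ≤ 1/m + 2/√(2t)`. -/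
theorem abs_hk_le {m : ℕ} (hm : 0 < m) {t : ℝ} (ht : 0 < t) (x : ℤ) :
    |hk m t x| ≤ 1 / m + 2 / sqrt (2 * t) := by
  have hm' : (0 : ℝ) < m := by exact_mod_cast hm
  unfold hk
  rw [abs_mul, abs_of_pos (show (0 : ℝ) < 1 / m by positivity)]
  have h1 : |∑ j ∈ range m, exp (-(t * (1 - cos (2 * π * j / m)))) * cos (2 * π * j / m * x)| ≤
      ∑ j ∈ range m, exp (-(t * (1 - cos (2 * π * j / m)))) := by
    refine (abs_sum_le_sum_abs _ _).trans (sum_le_sum fun j _ => ?_)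
    rw [abs_mul, abs_of_pos (exp_pos _)]
    exact mul_le_of_le_one_right (exp_pos _).le (abs_cos_le_one _)
  calc 1 / (m : ℝ) * |∑ j ∈ range m, exp (-(t * (1 - cos (2 * π * j / m)))) *
        cos (2 * π * j / m * x)|
      ≤ 1 / (m : ℝ) * (1 + 2 * m / sqrt (2 * t)) := by
        gcongr
        exact h1.trans (sum_exp_le hm ht)
    _ = _ := by field_simp

theorem abs_hk_le' {m : ℕ} (hm : 0 < m) {t : ℝ} (ht : 0 < t) (htm : t ≤ (m : ℝ) ^ 2) (x : ℤ) :
    |hk m t x| ≤ 3 / sqrt t := by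
  have hm' : (0 : ℝ) < m := by exact_mod_cast hm
  refine (abs_hk_le hm ht x).trans ?_
  have hs : 0 < sqrt t := sqrt_pos.2 ht
  have h1 : sqrt t ≤ m := by
    rw [show (m : ℝ) = sqrt ((m : ℝ) ^ 2) by rw [sqrt_sq hm'.le]]
    exact sqrt_le_sqrt htm
  have h2 : sqrt t ≤ sqrt (2 * t) := sqrt_le_sqrt (by linarith)
  have h3 : 1 / (m : ℝ) ≤ 1 / sqrt t := one_div_le_one_div_of_le hs h1
  have h4 : 2 / sqrt (2 * t) ≤ 2 / sqrt t := div_le_div_of_nonneg_left (by norm_num) hs h2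
  have h5 : 3 / sqrt t = 1 / sqrt t + 2 / sqrt t := by ring
  linarith

/-- `|sin (x φ)| ≤ |x| |sin φ|` for an integer `x`. -/
theorem abs_sin_nat_mul (n : ℕ) (φ : ℝ) : |sin (n * φ)| ≤ n * |sin φ| := by
  induction n with
  | zero => simp
  | succ n ih =>
    push_cast
    rw [add_mul, one_mul, sin_add]
    calc |sin (n * φ) * cos φ + cos (n * φ) * sin φ|
        ≤ |sin (n * φ) * cos φ| + |cos (n * φ) * sin φ| := abs_add_le _ _
      _ ≤ |sin (n * φ)| * 1 + 1 * |sin φ| := by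
          rw [abs_mul, abs_mul]
          gcongr
          · exact abs_cos_le_one _
          · exact abs_cos_le_one _
      _ ≤ _ := by linarith

theorem one_sub_cos_mul_le (θ : ℝ) (x : ℤ) : 1 - cos (θ * x) ≤ (x : ℝ) ^ 2 * (1 - cos θ) := by
  have h0 : cos (θ * x) = cos (θ * (x.natAbs : ℝ)) := by
    rcases Int.natAbs_eq x with h | h
    · conv_lhs => rw [h]
      simp
    · conv_lhs => rw [h]
      push_cast
      rw [mul_neg, cos_neg]
      simp
  have h1 : (x : ℝ) ^ 2 = (x.natAbs : ℝ) ^ 2 := by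
    have : ((x.natAbs : ℤ) : ℝ) ^ 2 = (x : ℝ) ^ 2 := by
      exact_mod_cast (Int.natAbs_sq x)
    rw [← this]; simp
  rw [h0, h1, one_sub_cos, one_sub_cos]
  have h2 := abs_sin_nat_mul x.natAbs (θ / 2)
  have h3 : θ * (x.natAbs : ℝ) / 2 = (x.natAbs : ℝ) * (θ / 2) := by ring
  rw [h3]
  have h4 := pow_le_pow_left₀ (abs_nonneg _) h2 2
  rw [sq_abs, mul_pow, sq_abs] at h4
  linarith

/-- `λ e^{-tλ} ≤ (1/t) e^{-tλ/2}` -/
theorem lam_exp_le {t l : ℝ} (ht : 0 < t) :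
    l * exp (-(t * l)) ≤ 1 / t * exp (-(t / 2 * l)) := by
  have h1 : t * l ≤ exp (t / 2 * l) := by
    have h2 := add_one_le_exp (t / 2 * l / 2)
    have h3 : exp (t / 2 * l) = exp (t / 2 * l / 2) ^ 2 := by
      rw [← exp_nat_mul]; congr 1; push_cast; ring
    rw [h3]
    nlinarith [sq_nonneg (exp (t / 2 * l / 2) - 2), exp_pos (t / 2 * l / 2)]
  have h4 : exp (-(t * l)) = exp (-(t / 2 * l)) * exp (-(t / 2 * l)) := by
    rw [← exp_add]; congr 1; ring
  rw [h4, one_div, ← div_eq_inv_mul, le_div_iff₀ ht]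
  have h5 : exp (-(t / 2 * l)) * exp (t / 2 * l) = 1 := by rw [← exp_add]; simp
  have h6 := mul_le_mul_of_nonneg_left h1 (exp_pos (-(t / 2 * l))).le
  rw [h5] at h6
  have h7 := mul_le_mul_of_nonneg_left h6 (exp_pos (-(t / 2 * l))).le
  linarith

/-- `hk m t 0 ≥ (1/11)/√t` for `t ≥ 1`. -/
theorem hk_zero_ge {m : ℕ} (hm : 0 < m) {t : ℝ} (ht : 1 ≤ t) :
    1 / 11 / sqrt t ≤ hk m t 0 := by
  have hm' : (0 : ℝ) < m := by exact_mod_cast hm
  have hs : 1 ≤ sqrt t := by rw [one_le_sqrt]; exact ht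
  have hs0 : 0 < sqrt t := by linarith
  set q : ℝ := m / (2 * π * sqrt t) with hq
  have hq0 : 0 ≤ q := by positivity
  set J : ℕ := ⌊q⌋₊ + 1 with hJ
  have hJq : q ≤ J := by rw [hJ]; push_cast; exact (Nat.lt_floor_add_one q).le
  have hqm : q < m := by
    rw [hq, div_lt_iff₀ (by positivity)]
    have : 1 < 2 * π * sqrt t := by nlinarith [pi_gt_three]
    nlinarith
  have hJm : J ≤ m := by
    rw [hJ]
    have := (Nat.floor_lt hq0).2 hqm
    omega
  unfold hk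
  have h1 : ∑ j ∈ range J, exp (-(1 / 2 : ℝ)) ≤
      ∑ j ∈ range m, exp (-(t * (1 - cos (2 * π * j / m)))) * cos (2 * π * j / m * ((0 : ℤ) : ℝ)) := by
    have h2 : ∑ j ∈ range J, exp (-(1 / 2 : ℝ)) ≤
        ∑ j ∈ range J, exp (-(t * (1 - cos (2 * π * j / m)))) *
          cos (2 * π * j / m * ((0 : ℤ) : ℝ)) := by
      refine sum_le_sum fun j hj => ?_
      rw [mem_range] at hj
      simp only [Int.cast_zero, mul_zero, cos_zero, mul_one]
      apply exp_le_exp.2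
      apply neg_le_neg
      have hjq : (j : ℝ) ≤ q := by
        have : j ≤ ⌊q⌋₊ := by omega
        exact (Nat.cast_le.2 this).trans (Nat.floor_le hq0)
      have h3 : 1 - cos (2 * π * j / m) ≤ (2 * π * j / m) ^ 2 / 2 := by
        have := one_sub_sq_div_two_le_cos (x := 2 * π * j / m)
        linarith
      have h4 : 2 * π * j / m ≤ 1 / sqrt t := by
        rw [div_le_div_iff₀ hm' hs0, one_mul]
        rw [hq, le_div_iff₀ (by positivity)] at hjq
        linarith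
      have h5 : (2 * π * j / m) ^ 2 ≤ (1 / sqrt t) ^ 2 := pow_le_pow_left₀ (by positivity) h4 2
      rw [one_div (sqrt t), inv_pow, sq_sqrt (by linarith), ← one_div] at h5
      calc t * (1 - cos (2 * π * j / m)) ≤ t * ((1 / t) / 2) := by
            apply mul_le_mul_of_nonneg_left _ (by linarith)
            linarith
        _ = 1 / 2 := by field_simp
    refine h2.trans (sum_le_sum_of_subset_of_nonneg ?_ ?_)
    · intro j hj; rw [mem_range] at hj ⊢; omega
    · intro j _ _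
      simp only [Int.cast_zero, mul_zero, cos_zero, mul_one]
      exact (exp_pos _).le
  rw [sum_const, card_range, nsmul_eq_mul] at h1
  have h6 : (0.6 : ℝ) ≤ exp (-(1 / 2)) := by
    have h7 : exp (1 / 2 : ℝ) ^ 2 = exp 1 := by rw [← exp_nat_mul]; congr 1; norm_num
    have h8 := exp_one_lt_d9
    have h9 : exp (1 / 2 : ℝ) ≤ 5 / 3 := by
      by_contra hc
      push Not at hc
      nlinarith [exp_pos (1 / 2 : ℝ)]
    rw [exp_neg, le_inv_comm₀ (by norm_num) (exp_pos _)]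
    norm_num at h9 ⊢
    linarith
  calc 1 / 11 / sqrt t ≤ 1 / m * (q * 0.6) := by
        rw [hq]
        have e : 1 / (m : ℝ) * (m / (2 * π * sqrt t) * 0.6) = 0.6 / (2 * π) / sqrt t := by
          field_simp
        rw [e]
        apply div_le_div_of_nonneg_right _ hs0.le
        rw [le_div_iff₀ (by positivity)]
        nlinarith [pi_lt_d2]
    _ ≤ 1 / m * (J * exp (-(1 / 2))) := by gcongr
    _ ≤ _ := by gcongr

/-- Lower bound: `hk m t x ≥ (1/22)/√t` for `1 ≤ t ≤ m²`, `110 x² ≤ t`. -/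
theorem hk_ge {m : ℕ} (hm : 0 < m) {t : ℝ} (ht : 1 ≤ t) (htm : t ≤ (m : ℝ) ^ 2) (x : ℤ)
    (hx : 110 * (x : ℝ) ^ 2 ≤ t) : 1 / 22 / sqrt t ≤ hk m t x := by
  have hm' : (0 : ℝ) < m := by exact_mod_cast hm
  have hs : 1 ≤ sqrt t := by rw [one_le_sqrt]; exact ht
  have hs0 : 0 < sqrt t := by linarith
  have ht0 : 0 < t := by linarith
  have h1 := hk_zero_ge hm ht
  have h2 : hk m t 0 - hk m t x ≤ (x : ℝ) ^ 2 * (1 / t * hk m (t / 2) 0) := by
    unfold hk
    rw [← mul_sub, ← sum_sub_distrib]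
    have e : (x : ℝ) ^ 2 * (1 / t * (1 / m * ∑ j ∈ range m,
        exp (-(t / 2 * (1 - cos (2 * π * j / m)))) * cos (2 * π * j / m * ((0 : ℤ) : ℝ)))) =
      1 / m * ∑ j ∈ range m, (x : ℝ) ^ 2 * (1 / t * exp (-(t / 2 * (1 - cos (2 * π * j / m))))) := by
      simp only [Int.cast_zero, mul_zero, cos_zero, mul_one]
      rw [← mul_sum, ← mul_sum]; ring
    rw [e]
    apply mul_le_mul_of_nonneg_left _ (by positivity)
    refine sum_le_sum fun j _ => ?_
    simp only [Int.cast_zero, mul_zero, cos_zero, mul_one]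
    have h3 := one_sub_cos_mul_le (2 * π * j / m) x
    have h4 := lam_exp_le (t := t) (l := 1 - cos (2 * π * j / m)) ht0
    have h5 := exp_pos (-(t * (1 - cos (2 * π * j / m))))
    calc exp (-(t * (1 - cos (2 * π * j / m)))) - exp (-(t * (1 - cos (2 * π * j / m)))) *
          cos (2 * π * j / m * x)
        = exp (-(t * (1 - cos (2 * π * j / m)))) * (1 - cos (2 * π * j / m * x)) := by ring
      _ ≤ exp (-(t * (1 - cos (2 * π * j / m)))) * ((x : ℝ) ^ 2 * (1 - cos (2 * π * j / m))) := by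
          gcongr
      _ = (x : ℝ) ^ 2 * ((1 - cos (2 * π * j / m)) * exp (-(t * (1 - cos (2 * π * j / m))))) := by
          ring
      _ ≤ _ := by gcongr
  have h6 := (le_abs_self _).trans (abs_hk_le (m := m) hm (t := t / 2) (by linarith) 0)
  have h7 : sqrt (2 * (t / 2)) = sqrt t := by congr 1; ring
  rw [h7] at h6
  have h8 : 1 / (m : ℝ) ≤ 1 / sqrt t := by
    apply one_div_le_one_div_of_le hs0
    rw [show (m : ℝ) = sqrt ((m : ℝ) ^ 2) by rw [sqrt_sq hm'.le]]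
    exact sqrt_le_sqrt htm
  have h9 : hk m (t / 2) 0 ≤ 3 / sqrt t := by
    have : 3 / sqrt t = 1 / sqrt t + 2 / sqrt t := by ring
    linarith
  have h10 : (x : ℝ) ^ 2 * (1 / t * hk m (t / 2) 0) ≤ (3 / 110) / sqrt t := by
    calc (x : ℝ) ^ 2 * (1 / t * hk m (t / 2) 0) ≤ (x : ℝ) ^ 2 * (1 / t * (3 / sqrt t)) := by gcongr
      _ = ((x : ℝ) ^ 2 / t) * 3 / sqrt t := by ring
      _ ≤ (1 / 110) * 3 / sqrt t := by
          apply div_le_div_of_nonneg_right _ hs0.le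
          apply mul_le_mul_of_nonneg_right _ (by norm_num)
          rw [div_le_div_iff₀ ht0 (by norm_num)]
          linarith
      _ = _ := by ring
  have h11 : 1 / 11 / sqrt t - (3 / 110) / sqrt t ≥ 1 / 22 / sqrt t := by
    have : 1 / 11 / sqrt t - (3 / 110) / sqrt t = (7 / 110) / sqrt t := by ring
    rw [this]
    exact div_le_div_of_nonneg_right (by norm_num) hs0.le
  linarith

end

end Vale.Agent.P361.LRO.B3
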