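import Vale.Agent.P361.LRO.Loc.Bound

/-!
P361 LRO, stage 3 (Bloch constant), leaf K1: the operator walk inequality (helper668).

`σ¹_z * v * σ¹_y ≥ q(v; z, y) • v - Err(v; z, y)` entrywise (`S³` basis), for a word `v` of gates,
`q` = kernel of the one particle walk through the word.
-/

open Matrix Finset

namespace Vale.Agent.P361.LRO.B3

open Vale.Agent.P361.LRO.Loc.Tr

set_option linter.unusedSectionVars false

variable {V : Type*} [Fintype V] [DecidableEq V]

/-- equal spins at `a, b`. -/
def eqM (a b : V) : Op V := Matrix.diagonal fun s => if s a = s b then 1 else 0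

/-- unequal spins at `a, b`. -/
def neM (a b : V) : Op V := Matrix.diagonal fun s => if s a = s b then 0 else 1

/-- exchange of unequal spins. -/
def exM (a b : V) : Op V := sw a b * neM a b

lemma eq_add_ne (a b : V) : eqM a b + neM a b = (1 : Op V) := by
  unfold eqM neM
  rw [Matrix.diagonal_add, ← Matrix.diagonal_one]
  congr 1; funext s; split_ifs <;> simp

lemma sw_mul_eq (a b : V) : sw a b * eqM a b = eqM a b := by
  unfold eqM
  ext s t
  rw [Matrix.mul_diagonal, Matrix.diagonal_apply]
  by_cases h : t a = t b
  · rw [if_pos h, mul_one]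
    have h2 : swp a b t = t := by
      funext z; simp only [swp, Function.comp]
      by_cases hz : z = a
      · subst hz; simp [h]
      · by_cases hz' : z = b
        · subst hz'; simp [h]
        · rw [Equiv.swap_apply_of_ne_of_ne hz hz']
    simp only [sw, h2]
    by_cases hst : s = t
    · subst hst; simp [h]
    · simp [hst]
  · rw [if_neg h, mul_zero]
    by_cases hst : s = t
    · subst hst; simp [h]
    · simp [hst]

lemma sw_eq (a b : V) : sw a b = eqM a b + exM a b := by
  have h : sw a b * (eqM a b + neM a b) = sw a b := by rw [eq_add_ne, Matrix.mul_one]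
  rw [Matrix.mul_add, sw_mul_eq] at h
  exact h.symm

lemma nn_eqM (a b : V) : NN (eqM a b) := by
  intro s t
  unfold eqM
  rw [Matrix.diagonal_apply]
  split_ifs <;> norm_num

lemma nn_neM (a b : V) : NN (neM a b) := by
  intro s t
  unfold neM
  rw [Matrix.diagonal_apply]
  split_ifs <;> norm_num

lemma nn_exM (a b : V) : NN (exM a b) := (NN.sw a b).mul (nn_neM a b)

lemma NN.zero : NN (0 : Op V) := fun _ _ => le_rfl

/-- the `stay` defect of a gate. -/
def bst (a b : V) (p : ℝ) : Op V := p • exM a b

/-- the `move` defect of a gate. -/
def bmv (a b : V) (p : ℝ) : Op V := (1 - p) • neM a b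

lemma gate_sub_bst (a b : V) (p : ℝ) :
    (Gate.sw a b p).mat - bst a b p = eqM a b + (1 - p) • neM a b := by
  simp only [Gate.mat]
  unfold bst
  rw [sw_eq, ← eq_add_ne a b]
  module

lemma gate_sub_bmv (a b : V) (p : ℝ) :
    (Gate.sw a b p).mat - bmv a b p = eqM a b + p • exM a b := by
  simp only [Gate.mat]
  unfold bmv
  rw [sw_eq, ← eq_add_ne a b]
  module

/-! ### one particle kernels -/

open Classical in
/-- kernel of the walk. -/
noncomputable def qk : List (Gate V) → V → V → ℝ
  | [], z, y => if z = y then 1 else 0
  | .sw a b p :: v, z, y => (1 - p) * qk v z y + p * qk v (Equiv.swap a b z) y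
  | .sl x θ :: v, z, y => (if x = z then (1 - θ) / (1 + θ) else 1) * qk v z y

open Classical in
/-- expected number of touched and not used gates. -/
noncomputable def nst : List (Gate V) → V → V → ℝ
  | [], _, _ => 0
  | .sw a b p :: v, z, y => (if z = a ∨ z = b then (1 - p) * qk v z y else 0) +
      ((1 - p) * nst v z y + p * nst v (Equiv.swap a b z) y)
  | .sl x θ :: v, z, y => (if x = z then (1 - θ) / (1 + θ) else 1) * nst v z y

open Classical in
/-- expected number of used gates. -/
noncomputable def nmv : List (Gate V) → V → V → ℝ
  | [], _, _ => 0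
  | .sw a b p :: v, z, y => (if z = a ∨ z = b then p * qk v (Equiv.swap a b z) y else 0) +
      ((1 - p) * nmv v z y + p * nmv v (Equiv.swap a b z) y)
  | .sl x θ :: v, z, y => (if x = z then (1 - θ) / (1 + θ) else 1) * nmv v z y

open Classical in
/-- error operator. -/
noncomputable def Err : List (Gate V) → V → V → Op V
  | [], _, _ => 0
  | .sw a b p :: v, z, y => (if z = a ∨ z = b then
        ((1 - p) * qk v z y) • (bst a b p * wm v) +
          (p * qk v (Equiv.swap a b z) y) • (bmv a b p * wm v) else 0) +
      (Gate.sw a b p).mat * ((1 - p) • Err v z y + p • Err v (Equiv.swap a b z) y)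
  | .sl x θ :: v, z, y => (if x = z then (1 - θ) / (1 + θ) else 1) •
      ((Gate.sl x θ).mat * Err v z y)

lemma slf_nonneg {x z : V} {θ : ℝ} (h : 0 ≤ θ ∧ θ ≤ 1) [Decidable (x = z)] :
    0 ≤ (if x = z then (1 - θ) / (1 + θ) else 1 : ℝ) := by
  split_ifs
  · exact div_nonneg (by linarith [h.2]) (by linarith [h.1])
  · norm_num

lemma qk_nonneg {v : List (Gate V)} (hv : Ok v) (z y : V) : 0 ≤ qk v z y := by
  induction v generalizing z with
  | nil => simp only [qk]; split_ifs <;> norm_num
  | cons g v ih =>
    have hg := hv g (by simp)
    have hv' : Ok v := fun g' hg' => hv g' (by simp [hg'])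
    cases g with
    | sw a b p =>
      simp only [qk]
      exact add_nonneg (mul_nonneg (by linarith [hg.2]) (ih hv' z)) (mul_nonneg hg.1 (ih hv' _))
    | sl x θ =>
      simp only [qk]
      exact mul_nonneg (slf_nonneg hg) (ih hv' z)

lemma Err_nn {v : List (Gate V)} (hv : Ok v) (z y : V) : NN (Err v z y) := by
  induction v generalizing z with
  | nil => simp only [Err]; exact NN.zero
  | cons g v ih =>
    have hg := hv g (by simp)
    have hv' : Ok v := fun g' hg' => hv g' (by simp [hg'])
    cases g with
    | sw a b p =>
      simp only [Err]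
      have h1 : 0 ≤ 1 - p := by linarith [hg.2]
      refine NN.add ?_ ((Gate.nn hg).mul (((ih hv' z).smul h1).add ((ih hv' _).smul hg.1)))
      split_ifs
      · refine NN.add (NN.smul (mul_nonneg h1 (qk_nonneg hv' _ _)) ?_)
          (NN.smul (mul_nonneg hg.1 (qk_nonneg hv' _ _)) ?_)
        · exact ((nn_exM a b).smul hg.1).mul (wm_nn hv')
        · exact ((nn_neM a b).smul h1).mul (wm_nn hv')
      · exact NN.zero
    | sl x θ =>
      simp only [Err]
      exact ((Gate.nn hg).mul (ih hv' z)).smul (slf_nonneg hg)

/-- `A ≥ q • v - Err` as `Le (q • v) (A + Err)`. -/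
theorem walk {v : List (Gate V)} (hv : Ok v) (z y : V) :
    Le (qk v z y • wm v) (sx z * wm v * sx y + Err v z y) := by
  induction v generalizing z with
  | nil =>
    simp only [qk, Err, add_zero]
    have h1 : wm ([] : List (Gate V)) = 1 := by simp [wm]
    rw [h1, Matrix.mul_one]
    intro s t
    split_ifs with h
    · subst h; rw [sx_sq, one_smul]
    · rw [zero_smul]; exact ((NN.sx z).mul (NN.sx y)) s t
  | cons g v ih =>
    have hg := hv g (by simp)
    have hv' : Ok v := fun g' hg' => hv g' (by simp [hg'])
    rw [wm_cons]
    cases g with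
    | sw a b p =>
      have hp0 := hg.1
      have hp1 : 0 ≤ 1 - p := by linarith [hg.2]
      simp only [qk, Err]
      set z' := Equiv.swap a b z with hz'
      have hA : sx z * ((Gate.sw a b p).mat * wm v) * sx y =
          (1 - p) • (sx z * wm v * sx y) + p • (sw a b * (sx z' * wm v * sx y)) := by
        have hc : sx z * sw a b = sw a b * (sx z' : Op V) := by
          by_cases h1 : z = a
          · subst h1
            rw [hz', Equiv.swap_apply_left]; exact sx_mul_sw z b
          · by_cases h2 : z = b
            · subst h2
              rw [hz', Equiv.swap_apply_right]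
              have h3 := sx_mul_sw z a
              have h4 : (sw a z : Op V) = sw z a := by
                funext s t; simp only [sw]
                congr 1
                rw [show swp a z t = swp z a t from by funext w; simp [swp, Equiv.swap_comm]]
              rw [h4]; exact h3
            · rw [hz', Equiv.swap_apply_of_ne_of_ne h1 h2]
              exact sx_comm_sw z a b (Ne.symm h1) (Ne.symm h2)
        simp only [Gate.mat]
        rw [← Matrix.mul_assoc (sx z), Matrix.mul_add, Matrix.mul_smul, Matrix.mul_smul,
          Matrix.mul_one, hc, Matrix.add_mul, Matrix.add_mul, Matrix.smul_mul, Matrix.smul_mul,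
          Matrix.smul_mul, Matrix.smul_mul]
        simp only [Matrix.mul_assoc]
      rw [hA]
      have i1 := ih hv' z
      have i2 := ih hv' z'
      have nA1 : NN (sx z * wm v * sx y) := ((NN.sx z).mul (wm_nn hv')).mul (NN.sx y)
      have nA2 : NN (sx z' * wm v * sx y) := ((NN.sx z').mul (wm_nn hv')).mul (NN.sx y)
      by_cases ht : z = a ∨ z = b
      · rw [if_pos ht]
        -- the lowered gates
        have n1 : NN ((Gate.sw a b p).mat - bst a b p) := by
          rw [gate_sub_bst]; exact (nn_eqM a b).add ((nn_neM a b).smul hp1)
        have n2 : NN ((Gate.sw a b p).mat - bmv a b p) := by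
          rw [gate_sub_bmv]; exact (nn_eqM a b).add ((nn_exM a b).smul hp0)
        have l1 : Le ((Gate.sw a b p).mat - bst a b p) 1 := by
          rw [gate_sub_bst, ← eq_add_ne a b]
          intro s t
          simp only [Matrix.add_apply, Matrix.smul_apply, smul_eq_mul]
          have := nn_neM a b s t
          nlinarith
        have l2 : Le ((Gate.sw a b p).mat - bmv a b p) (sw a b) := by
          rw [gate_sub_bmv, sw_eq]
          intro s t
          simp only [Matrix.add_apply, Matrix.smul_apply, smul_eq_mul]
          have := nn_exM a b s t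
          nlinarith [hg.2]
        have j1 := l1.mul_right nA1
        have j2 := l2.mul_right nA2
        have k1 := i1.mul_left n1
        have k2 := i2.mul_left n2
        have e1 : Le (((Gate.sw a b p).mat - bst a b p) * Err v z y)
            ((Gate.sw a b p).mat * Err v z y) := by
          have := (((nn_exM a b).smul hp0).mul (Err_nn hv' z y))
          intro s t
          have h5 := this s t
          rw [Matrix.sub_mul, Matrix.sub_apply]
          unfold bst
          linarith
        have e2 : Le (((Gate.sw a b p).mat - bmv a b p) * Err v z' y)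
            ((Gate.sw a b p).mat * Err v z' y) := by
          have := (((nn_neM a b).smul hp1).mul (Err_nn hv' z' y))
          intro s t
          have h5 := this s t
          rw [Matrix.sub_mul, Matrix.sub_apply]
          unfold bmv
          linarith
        intro s t
        have a1 := j1 s t
        have a2 := j2 s t
        have a3 := k1 s t
        have a4 := k2 s t
        have a5 := e1 s t
        have a6 := e2 s t
        simp only [Matrix.mul_add, Matrix.sub_mul, Matrix.mul_smul, Matrix.add_apply,
          Matrix.sub_apply, Matrix.smul_apply, smul_eq_mul, Matrix.one_mul] at a1 a2 a3 a4 a5 a6 ⊢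
        nlinarith [mul_le_mul_of_nonneg_left a1 hp1, mul_le_mul_of_nonneg_left a2 hp0,
          mul_le_mul_of_nonneg_left a3 hp1, mul_le_mul_of_nonneg_left a4 hp0,
          mul_le_mul_of_nonneg_left a5 hp1, mul_le_mul_of_nonneg_left a6 hp0]
      · rw [if_neg ht, zero_add]
        push Not at ht
        have hzz : z' = z := by rw [hz', Equiv.swap_apply_of_ne_of_ne ht.1 ht.2]
        rw [hzz]
        have k1 := i1.mul_left (Gate.nn hg)
        intro s t
        have a3 := k1 s t
        have e3 : (Gate.sw a b p).mat * (sx z * wm v * sx y) =
            (1 - p) • (sx z * wm v * sx y) + p • (sw a b * (sx z * wm v * sx y)) := by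
          simp only [Gate.mat]
          rw [Matrix.add_mul, Matrix.smul_mul, Matrix.smul_mul, Matrix.one_mul]
        rw [← e3]
        simp only [Matrix.mul_add, Matrix.mul_smul, Matrix.add_apply,
          Matrix.smul_apply, smul_eq_mul] at a3 ⊢
        linarith
    | sl x θ =>
      simp only [qk, Err]
      have i1 := ih hv' z
      have nA1 : NN (sx z * wm v * sx y) := ((NN.sx z).mul (wm_nn hv')).mul (NN.sx y)
      by_cases hxz : x = z
      · subst hxz
        rw [if_pos rfl]
        have hr0 : 0 ≤ (1 - θ) / (1 + θ) := div_nonneg (by linarith [hg.2]) (by linarith [hg.1])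
        have hc : sx x * sz x = -(sz x * sx x : Op V) := by
          ext s t
          rw [sx_mul_apply, Matrix.neg_apply, mul_sx_apply, sz, Matrix.diagonal_apply,
            Matrix.diagonal_apply]
          have h1 : Loc.Tr.flip x s = t ↔ s = Loc.Tr.flip x t := by
            constructor
            · rintro rfl; rw [Loc.Tr.flip_flip]
            · rintro rfl; rw [Loc.Tr.flip_flip]
          have h2 : sg (Loc.Tr.flip x s x) = -sg (s x) := by
            simp only [Loc.Tr.flip, Function.update_self]
            cases s x <;> simp [sg]
          simp only [h1, h2]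
          split_ifs <;> simp
        have hA : sx x * ((Gate.sl x θ).mat * wm v) * sx y =
            (1 - θ • sz x) * (sx x * wm v * sx y) := by
          simp only [Gate.mat]
          rw [← Matrix.mul_assoc (sx x), Matrix.mul_add, Matrix.mul_smul, Matrix.mul_one, hc,
            smul_neg, ← sub_eq_add_neg, ← Matrix.smul_mul]
          rw [show sx x - (θ • sz x) * sx x = (1 - θ • sz x) * (sx x : Op V) by
            rw [Matrix.sub_mul, Matrix.one_mul]]
          simp only [Matrix.mul_assoc]
        rw [hA]
        have l1 : Le (((1 - θ) / (1 + θ)) • (Gate.sl x θ).mat) (1 - θ • sz x : Op V) := by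
          intro s t
          simp only [Gate.mat, Matrix.smul_apply, Matrix.add_apply, Matrix.sub_apply, sz,
            Matrix.diagonal_apply, Matrix.one_apply, smul_eq_mul]
          have h1 := hg.1
          have h2 := hg.2
          have h3 : (0:ℝ) < 1 + θ := by linarith
          by_cases hst : s = t
          · simp only [hst, if_true]
            cases t x
            · simp only [sg, Bool.false_eq_true, if_false]
              rw [div_mul_eq_mul_div, div_le_iff₀ h3]; nlinarith
            · simp only [sg, if_true]
              rw [div_mul_eq_mul_div, div_le_iff₀ h3]; nlinarith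
          · simp [hst]
        have k0 := l1.mul_right nA1
        have k1 := i1.mul_left (Gate.nn hg)
        intro s t
        have a1 := k0 s t
        have a2 := k1 s t
        simp only [Matrix.mul_add, Matrix.mul_smul, Matrix.smul_mul, Matrix.add_apply,
          Matrix.smul_apply, smul_eq_mul] at a1 a2 ⊢
        nlinarith [mul_le_mul_of_nonneg_left a2 hr0]
      · rw [if_neg hxz, one_mul, one_smul]
        have hc : sx z * (Gate.sl x θ).mat = (Gate.sl x θ).mat * (sx z : Op V) := by
          simp only [Gate.mat]
          rw [Matrix.mul_add, Matrix.add_mul, Matrix.mul_smul, Matrix.smul_mul,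
            sx_comm_sz z x hxz, Matrix.mul_one, Matrix.one_mul]
        have hA : sx z * ((Gate.sl x θ).mat * wm v) * sx y =
            (Gate.sl x θ).mat * (sx z * wm v * sx y) := by
          rw [← Matrix.mul_assoc (sx z), hc]
          simp only [Matrix.mul_assoc]
        rw [hA]
        have k1 := i1.mul_left (Gate.nn hg)
        intro s t
        have a2 := k1 s t
        simp only [Matrix.mul_add, Matrix.mul_smul, Matrix.add_apply,
          Matrix.smul_apply, smul_eq_mul] at a2 ⊢
        linarith

/-- **K1**, trace form.  `L`, `R` words; `δs`, `δm` bound the defect insertions. -/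
theorem walk_trace {v w1 w3 : List (Gate V)} (hv : Ok v) (h1 : Ok w1) (h3 : Ok w3) (z y : V)
    {δs δm : ℝ}
    (hs : ∀ (v1 v2 : List (Gate V)) (a b : V) (p : ℝ), v = v1 ++ Gate.sw a b p :: v2 →
      (wm w1 * (wm v1 * (bst a b p * wm v2)) * wm w3).trace ≤ δs)
    (hm : ∀ (v1 v2 : List (Gate V)) (a b : V) (p : ℝ), v = v1 ++ Gate.sw a b p :: v2 →
      (wm w1 * (wm v1 * (bmv a b p * wm v2)) * wm w3).trace ≤ δm) :
    qk v z y * (wm w1 * wm v * wm w3).trace - (nst v z y * δs + nmv v z y * δm) ≤
      (wm w1 * (sx z * wm v * sx y) * wm w3).trace := by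
  -- trace of the error operator
  have herr : ∀ (v : List (Gate V)), Ok v → ∀ (w1 : List (Gate V)), Ok w1 → ∀ z,
      (∀ (v1 v2 : List (Gate V)) (a b : V) (p : ℝ), v = v1 ++ Gate.sw a b p :: v2 →
        (wm w1 * (wm v1 * (bst a b p * wm v2)) * wm w3).trace ≤ δs) →
      (∀ (v1 v2 : List (Gate V)) (a b : V) (p : ℝ), v = v1 ++ Gate.sw a b p :: v2 →
        (wm w1 * (wm v1 * (bmv a b p * wm v2)) * wm w3).trace ≤ δm) →
      (wm w1 * Err v z y * wm w3).trace ≤ nst v z y * δs + nmv v z y * δm := by
    intro v
    induction v with
    | nil =>
      intro _ w1 _ z _ _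
      simp [Err, nst, nmv]
    | cons g v ih =>
      intro hv w1 h1 z hs hm
      have hg := hv g (by simp)
      have hv' : Ok v := fun g' hg' => hv g' (by simp [hg'])
      have hw1 : Ok (w1 ++ [g]) := by
        intro g' hg'
        rw [List.mem_append, List.mem_singleton] at hg'
        rcases hg' with h | rfl
        · exact h1 g' h
        · exact hg
      have hwm : wm (w1 ++ [g]) = wm w1 * g.mat := by
        rw [wm_append]; congr 1; simp [wm]
      have hs' : ∀ (v1 v2 : List (Gate V)) (a b : V) (p : ℝ), v = v1 ++ Gate.sw a b p :: v2 →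
          (wm (w1 ++ [g]) * (wm v1 * (bst a b p * wm v2)) * wm w3).trace ≤ δs := by
        intro v1 v2 a b p hvv
        have := hs (g :: v1) v2 a b p (by rw [hvv]; rfl)
        rw [wm_cons] at this
        rw [hwm]
        refine le_trans (le_of_eq ?_) this
        congr 1
        simp only [Matrix.mul_assoc]
      have hm' : ∀ (v1 v2 : List (Gate V)) (a b : V) (p : ℝ), v = v1 ++ Gate.sw a b p :: v2 →
          (wm (w1 ++ [g]) * (wm v1 * (bmv a b p * wm v2)) * wm w3).trace ≤ δm := by
        intro v1 v2 a b p hvv
        have := hm (g :: v1) v2 a b p (by rw [hvv]; rfl)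
        rw [wm_cons] at this
        rw [hwm]
        refine le_trans (le_of_eq ?_) this
        congr 1
        simp only [Matrix.mul_assoc]
      cases g with
      | sw a b p =>
        have i1 := ih hv' (w1 ++ [Gate.sw a b p]) hw1 z hs' hm'
        have i2 := ih hv' (w1 ++ [Gate.sw a b p]) hw1 (Equiv.swap a b z) hs' hm'
        have c1 := hs [] v a b p rfl
        have c2 := hm [] v a b p rfl
        have hw0 : wm ([] : List (Gate V)) = 1 := by simp [wm]
        rw [hw0, Matrix.one_mul] at c1 c2
        rw [hwm] at i1 i2
        have hp0 := hg.1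
        have hp1 : 0 ≤ 1 - p := by linarith [hg.2]
        have q1 := qk_nonneg hv' z y
        have q2 := qk_nonneg hv' (Equiv.swap a b z) y
        simp only [Err, nst, nmv]
        have e1 : (wm w1 * ((Gate.sw a b p).mat *
            ((1 - p) • Err v z y + p • Err v (Equiv.swap a b z) y)) * wm w3).trace
            = (1 - p) * (wm w1 * (Gate.sw a b p).mat * Err v z y * wm w3).trace
              + p * (wm w1 * (Gate.sw a b p).mat * Err v (Equiv.swap a b z) y * wm w3).trace := by
          simp only [Matrix.mul_add, Matrix.add_mul, Matrix.mul_smul, Matrix.smul_mul,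
            Matrix.trace_add, Matrix.trace_smul, smul_eq_mul, Matrix.mul_assoc]
        rw [Matrix.mul_add, Matrix.add_mul, Matrix.trace_add, e1]
        have j1 := mul_le_mul_of_nonneg_left i1 hp1
        have j2 := mul_le_mul_of_nonneg_left i2 hp0
        by_cases ht : z = a ∨ z = b
        · simp only [if_pos ht]
          have e2 : (wm w1 * (((1 - p) * qk v z y) • (bst a b p * wm v) +
              (p * qk v (Equiv.swap a b z) y) • (bmv a b p * wm v)) * wm w3).trace
              = ((1 - p) * qk v z y) * (wm w1 * (bst a b p * wm v) * wm w3).trace +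
                (p * qk v (Equiv.swap a b z) y) *
                  (wm w1 * (bmv a b p * wm v) * wm w3).trace := by
            simp only [Matrix.mul_add, Matrix.add_mul, Matrix.mul_smul, Matrix.smul_mul,
              Matrix.trace_add, Matrix.trace_smul, smul_eq_mul]
          rw [e2]
          have j3 := mul_le_mul_of_nonneg_left c1 (mul_nonneg hp1 q1)
          have j4 := mul_le_mul_of_nonneg_left c2 (mul_nonneg hp0 q2)
          linarith
        · simp only [if_neg ht]
          rw [Matrix.mul_zero, Matrix.zero_mul, Matrix.trace_zero]
          linarith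
      | sl x θ =>
        have i1 := ih hv' (w1 ++ [Gate.sl x θ]) hw1 z hs' hm'
        rw [hwm] at i1
        simp only [Err, nst, nmv]
        rw [Matrix.mul_smul, Matrix.smul_mul, Matrix.trace_smul, smul_eq_mul,
          ← Matrix.mul_assoc (wm w1)]
        have hf : 0 ≤ (if x = z then (1 - θ) / (1 + θ) else 1 : ℝ) := slf_nonneg hg
        have j1 := mul_le_mul_of_nonneg_left i1 hf
        refine le_trans j1 (le_of_eq ?_)
        ring
  have hw := (((walk hv z y).mul_left (wm_nn h1)).mul_right (wm_nn h3)).tr
  have he := herr v hv w1 h1 z hs hm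
  rw [Matrix.mul_smul, Matrix.smul_mul, Matrix.trace_smul, smul_eq_mul, Matrix.mul_add,
    Matrix.add_mul, Matrix.trace_add] at hw
  linarith

end Vale.Agent.P361.LRO.B3
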